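import Mathlib

open Finset

namespace Vale.Agent.P040

variable {K : Type*} [Field K] {V V' : Type*} [AddCommGroup V] [Module K V] [AddCommGroup V']
  [Module K V']

variable (K V) in
/-- Vector valued polynomial functions of degree less than `N`. -/
def Pol (N : ℕ) : AddSubmonoid (K → V) :=
  AddSubmonoid.closure {f | ∃ k < N, ∃ v : V, f = fun s => s ^ k • v}

variable (K V) in
/-- Vector valued polynomial functions of two variables with degrees less than `A` and `B`. -/
def Box (A B : ℕ) : AddSubmonoid (K → K → V) :=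
  AddSubmonoid.closure {f | ∃ k < A, ∃ l < B, ∃ v : V, f = fun s t => (s ^ k * t ^ l) • v}

lemma Pol.ind {N : ℕ} {p : (K → V) → Prop} (h0 : p 0) (ha : ∀ f g, p f → p g → p (f + g))
    (hm : ∀ k < N, ∀ v : V, p fun s => s ^ k • v) {f : K → V} (hf : f ∈ Pol K V N) : p f := by
  induction hf using AddSubmonoid.closure_induction with
  | mem x hx => obtain ⟨k, hk, v, rfl⟩ := hx; exact hm k hk v
  | zero => exact h0
  | add x y _ _ hx hy => exact ha x y hx hy

lemma Box.ind {A B : ℕ} {p : (K → K → V) → Prop} (h0 : p 0) (ha : ∀ f g, p f → p g → p (f + g))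
    (hm : ∀ k < A, ∀ l < B, ∀ v : V, p fun s t => (s ^ k * t ^ l) • v) {f : K → K → V}
    (hf : f ∈ Box K V A B) : p f := by
  induction hf using AddSubmonoid.closure_induction with
  | mem x hx => obtain ⟨k, hk, l, hl, v, rfl⟩ := hx; exact hm k hk l hl v
  | zero => exact h0
  | add x y _ _ hx hy => exact ha x y hx hy

lemma Pol.mono_mem {N k : ℕ} (hk : k < N) (v : V) : (fun s : K => s ^ k • v) ∈ Pol K V N :=
  AddSubmonoid.subset_closure ⟨k, hk, v, rfl⟩

lemma Box.mono_mem {A B k l : ℕ} (hk : k < A) (hl : l < B) (v : V) :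
    (fun s t : K => (s ^ k * t ^ l) • v) ∈ Box K V A B :=
  AddSubmonoid.subset_closure ⟨k, hk, l, hl, v, rfl⟩

lemma Pol.le {N M : ℕ} (h : N ≤ M) {f : K → V} (hf : f ∈ Pol K V N) : f ∈ Pol K V M :=
  Pol.ind (p := fun f => f ∈ Pol K V M) (zero_mem _) (fun _ _ => add_mem)
    (fun _ hk v => Pol.mono_mem (hk.trans_le h) v) hf

lemma Box.le {A B C D : ℕ} (h : A ≤ C) (h' : B ≤ D) {f : K → K → V} (hf : f ∈ Box K V A B) :
    f ∈ Box K V C D :=
  Box.ind (p := fun f => f ∈ Box K V C D) (zero_mem _) (fun _ _ => add_mem)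
    (fun _ hk _ hl v => Box.mono_mem (hk.trans_le h) (hl.trans_le h') v) hf

lemma Box.zero_left {B : ℕ} {f : K → K → V} (hf : f ∈ Box K V 0 B) : f = 0 := by
  refine Box.ind (p := fun f => f = 0) ?_ ?_ (fun _ hk => absurd hk (by omega)) hf
  · rfl
  · intro _ _ h1 h2; rw [h1, h2, add_zero]

lemma Box.zero_right {A : ℕ} {f : K → K → V} (hf : f ∈ Box K V A 0) : f = 0 := by
  refine Box.ind (p := fun f => f = 0) ?_ ?_ (fun _ _ _ hk => absurd hk (by omega)) hf
  · rfl
  · intro _ _ h1 h2; rw [h1, h2, add_zero]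

lemma Box.row {A B : ℕ} {f : K → K → V} (hf : f ∈ Box K V A B) (s : K) : f s ∈ Pol K V B := by
  refine Box.ind (p := fun f => f s ∈ Pol K V B) (zero_mem _) (fun _ _ => add_mem) ?_ hf
  intro k _ l hl v
  have := Pol.mono_mem (K := K) hl (s ^ k • v)
  simpa only [smul_smul, mul_comm] using this

lemma Box.swap {A B : ℕ} {f : K → K → V} (hf : f ∈ Box K V A B) :
    (fun s t => f t s) ∈ Box K V B A := by
  refine Box.ind (p := fun f => (fun s t => f t s) ∈ Box K V B A) (zero_mem _)
    (fun _ _ => add_mem) ?_ hf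
  intro k hk l hl v
  have := Box.mono_mem (K := K) hl hk v
  simpa only [mul_comm] using this

lemma Box.col {A B : ℕ} {f : K → K → V} (hf : f ∈ Box K V A B) (t : K) :
    (fun s => f s t) ∈ Pol K V A := Box.row (Box.swap hf) t

lemma Box.diag {A B : ℕ} {f : K → K → V} (hf : f ∈ Box K V A B) :
    (fun t => f t t) ∈ Pol K V (A + B - 1) := by
  refine Box.ind (p := fun f => (fun t => f t t) ∈ Pol K V (A + B - 1)) (zero_mem _)
    (fun _ _ => add_mem) ?_ hf
  intro k hk l hl v
  have := Pol.mono_mem (K := K) (show k + l < A + B - 1 by omega) v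
  simpa only [pow_add] using this

lemma Box.mul {A B C D : ℕ} {f : K → K → K} {g : K → K → V} (hf : f ∈ Box K K A B)
    (hg : g ∈ Box K V C D) : (fun s t => f s t • g s t) ∈ Box K V (A + C - 1) (B + D - 1) := by
  refine Box.ind (p := fun f => (fun s t => f s t • g s t) ∈ Box K V (A + C - 1) (B + D - 1))
    ?_ ?_ ?_ hf
  · simp only [Pi.zero_apply, zero_smul]; exact zero_mem _
  · intro f1 f2 h1 h2
    simp only [Pi.add_apply, add_smul]; exact add_mem h1 h2
  intro k hk l hl c
  refine Box.ind (p := fun g => (fun s t => ((s ^ k * t ^ l) • c) • g s t) ∈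
    Box K V (A + C - 1) (B + D - 1)) ?_ ?_ ?_ hg
  · simp only [Pi.zero_apply, smul_zero]; exact zero_mem _
  · intro f1 f2 h1 h2
    simp only [Pi.add_apply, smul_add]; exact add_mem h1 h2
  intro k' hk' l' hl' v
  have := Box.mono_mem (K := K) (show k + k' < A + C - 1 by omega)
    (show l + l' < B + D - 1 by omega) (c • v)
  convert this using 3
  simp only [smul_smul, smul_eq_mul, pow_add]
  congr 1; ring

lemma Box.const_smul {A B : ℕ} (c : K) {g : K → K → V} (hg : g ∈ Box K V A B) :
    (fun s t => c • g s t) ∈ Box K V A B := by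
  have := Box.mul (Box.mono_mem (K := K) Nat.one_pos Nat.one_pos c) hg
  simpa using this

lemma Box.sub {A B : ℕ} {f g : K → K → V} (hf : f ∈ Box K V A B) (hg : g ∈ Box K V A B) :
    f - g ∈ Box K V A B := by
  have := add_mem hf (Box.const_smul (-1) hg)
  convert this using 1
  ext s t; simp [sub_eq_add_neg]

lemma Box.lin : (fun s t : K => s - t) ∈ Box K K 2 2 := by
  have := Box.sub (Box.mono_mem (K := K) (A := 2) (B := 2) (k := 1) (l := 0) (by omega) (by omega)
    (1:K)) (Box.mono_mem (K := K) (A := 2) (B := 2) (k := 0) (l := 1) (by omega) (by omega) (1:K))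
  convert this using 1
  ext s t; simp

lemma Pol.poly {N : ℕ} (p : Polynomial K) (hp : p.natDegree < N) :
    (fun s => p.eval s) ∈ Pol K K N := by
  have : (fun s => p.eval s) = ∑ k ∈ range N, fun s => s ^ k • p.coeff k := by
    ext s; rw [Polynomial.eval_eq_sum_range' hp]; simp [mul_comm]
  rw [this]
  exact sum_mem fun k hk => Pol.mono_mem (mem_range.1 hk) _

lemma diag_surj {A B : ℕ} {φ : K → K} (hφ : φ ∈ Pol K K (A + B + 1)) :
    ∃ l ∈ Box K K (A + 1) (B + 1), ∀ t, l t t = φ t := by
  refine Pol.ind (p := fun φ => ∃ l ∈ Box K K (A + 1) (B + 1), ∀ t, l t t = φ t)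
    ⟨0, zero_mem _, fun _ => rfl⟩ ?_ ?_ hφ
  · rintro f g ⟨l1, h1, e1⟩ ⟨l2, h2, e2⟩
    exact ⟨l1 + l2, add_mem h1 h2, fun t => by simp [e1, e2]⟩
  · intro k hk v
    refine ⟨_, Box.mono_mem (k := min k A) (l := k - min k A) (by omega) (by omega) v, fun t => ?_⟩
    simp only [← pow_add]
    rw [show min k A + (k - min k A) = k by omega]

lemma coef_zero [Infinite K] {N : ℕ} (v : ℕ → V) (h : ∀ s : K, ∑ n ∈ range N, s ^ n • v n = 0)
    {n : ℕ} (hn : n < N) : v n = 0 := by
  rw [← Module.forall_dual_apply_eq_zero_iff K]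
  intro ξ
  have hp : (∑ k ∈ range N, Polynomial.monomial k (ξ (v k))) = 0 := by
    apply Polynomial.funext
    intro s
    have := congrArg ξ (h s)
    simpa [Polynomial.eval_finsetSum, mul_comm] using this
  have := congrArg (fun p => Polynomial.coeff p n) hp
  simpa [Polynomial.coeff_monomial, hn] using this

lemma Box.div [Infinite K] {A B : ℕ} {f : K → K → V} (hf : f ∈ Box K V (A + 1) (B + 1))
    (h0 : ∀ t, f t t = 0) : ∃ h ∈ Box K V A B, ∀ s t, f s t = (s - t) • h s t := by
  have key : ∃ h ∈ Box K V A B, ∃ v : ℕ → V, ∀ s t, f s t = (s - t) • h s t +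
      ∑ n ∈ range (A + B + 1), (s ^ min n A * t ^ (n - min n A)) • v n := by
    refine Box.ind (p := fun f => ∃ h ∈ Box K V A B, ∃ v : ℕ → V, ∀ s t, f s t = (s - t) • h s t +
      ∑ n ∈ range (A + B + 1), (s ^ min n A * t ^ (n - min n A)) • v n) ?_ ?_ ?_ hf
    · exact ⟨0, zero_mem _, 0, by simp⟩
    · rintro f g ⟨h1, m1, v1, e1⟩ ⟨h2, m2, v2, e2⟩
      refine ⟨h1 + h2, add_mem m1 m2, v1 + v2, fun s t => ?_⟩
      simp only [Pi.add_apply, e1, e2, smul_add, sum_add_distrib]; abel
    · intro k hk l hl v
      suffices H : ∃ h ∈ Box K V A B, ∀ s t : K, (s ^ k * t ^ l) • v = (s - t) • h s t +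
          (s ^ min (k + l) A * t ^ (k + l - min (k + l) A)) • v by
        obtain ⟨h, hm, e⟩ := H
        refine ⟨h, hm, Pi.single (k + l) v, fun s t => ?_⟩
        beta_reduce
        rw [e, sum_eq_single (k + l)]
        · simp
        · intro b _ hb; simp [hb]
        · intro hb; simp at hb; omega
      induction l generalizing k with
      | zero => exact ⟨0, zero_mem _, fun s t => by simp [show k ≤ A by omega]⟩
      | succ l ih =>
        rcases (show k ≤ A by omega).eq_or_lt with rfl | hlt
        · exact ⟨0, zero_mem _, fun s t => by simp⟩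
        obtain ⟨h, hm, e⟩ := ih (k + 1) (by omega) (by omega)
        refine ⟨h - fun s t => (s ^ k * t ^ l) • v, Box.sub hm (Box.mono_mem hlt (by omega) v),
          fun s t => ?_⟩
        rw [show k + (l + 1) = k + 1 + l by omega, Pi.sub_apply, Pi.sub_apply, smul_sub,
          sub_add_eq_add_sub, ← e, smul_smul, ← sub_smul]
        congr 1; ring
  obtain ⟨h, hm, v, e⟩ := key
  refine ⟨h, hm, fun s t => ?_⟩
  have hv : ∀ n < A + B + 1, v n = 0 := fun n hn => coef_zero (K := K) v (fun s => by
    have := e s s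
    rw [h0, sub_self, zero_smul, zero_add] at this
    rw [this]
    refine sum_congr rfl fun n _ => ?_
    rw [← pow_add, show min n A + (n - min n A) = n by omega]) hn
  rw [e, sum_eq_zero fun n hn => by rw [hv n (mem_range.1 hn), smul_zero], add_zero]

section nodes

variable {ι : Type*} [Fintype ι] [DecidableEq ι] {t : ι → K}

/-- Barycentric weights of the nodes. -/
noncomputable def lam (t : ι → K) (i : ι) : K := Lagrange.nodalWeight univ t i

lemma lam_ne (ht : Function.Injective t) (i : ι) : lam t i ≠ 0 :=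
  Lagrange.nodalWeight_ne_zero ht.injOn (mem_univ i)

lemma Pol.sum0 (ht : Function.Injective t) {N : ℕ} (hN : N + 1 ≤ Fintype.card ι) {f : K → V}
    (hf : f ∈ Pol K V N) : ∑ i, lam t i • f (t i) = 0 := by
  refine Pol.ind (p := fun f => ∑ i, lam t i • f (t i) = 0) (by simp) ?_ ?_ hf
  · intro f g h1 h2; simp [sum_add_distrib, h1, h2]
  · intro k hk v
    have := Lagrange.coeff_eq_sum (s := univ) ht.injOn (P := Polynomial.X ^ k)
      (by rw [Polynomial.degree_X_pow, card_univ]; exact_mod_cast (by omega))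
    rw [Polynomial.coeff_X_pow, if_neg (by rw [card_univ]; omega)] at this
    simp only [smul_smul, ← sum_smul]
    convert zero_smul K v
    rw [this]
    refine sum_congr rfl fun i _ => ?_
    simp [lam, Lagrange.nodalWeight, div_eq_mul_inv, mul_comm]

lemma Pol.eq_zero (ht : Function.Injective t) {N : ℕ} (hN : N ≤ Fintype.card ι) {f : K → V}
    (hf : f ∈ Pol K V N) (h0 : ∀ i, f (t i) = 0) (s : K) : f s = 0 := by
  have : f s = ∑ i, (Lagrange.basis univ t i).eval s • f (t i) := by
    refine Pol.ind (p := fun f => f s = ∑ i, (Lagrange.basis univ t i).eval s • f (t i))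
      (by simp) ?_ ?_ hf
    · intro f g h1 h2; simp only [Pi.add_apply, smul_add, sum_add_distrib, ← h1, ← h2]
    · intro k hk v
      have := Lagrange.eq_interpolate (s := univ) ht.injOn (f := Polynomial.X ^ k)
        (by rw [Polynomial.degree_X_pow, card_univ]; exact_mod_cast (by omega))
      have := congrArg (Polynomial.eval s) this
      simp only [smul_smul, ← sum_smul]
      congr 1
      simpa [Lagrange.interpolate_apply, Polynomial.eval_finsetSum, mul_comm] using this
  simp [this, h0]

lemma exists_delta (ht : Function.Injective t) {A B : ℕ} (hN : Fintype.card ι ≤ A + B + 1) (i : ι) :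
    ∃ l ∈ Box K K (A + 1) (B + 1), l (t i) (t i) = 1 ∧ ∀ j, j ≠ i → l (t j) (t j) = 0 := by
  obtain ⟨l, hl, e⟩ := diag_surj (A := A) (B := B) (Pol.poly (Lagrange.basis univ t i) (by
    rw [Lagrange.natDegree_basis ht.injOn (mem_univ i), card_univ]
    have := Fintype.card_pos_iff.2 ⟨i⟩
    omega))
  exact ⟨l, hl, by rw [e, Lagrange.eval_basis_self ht.injOn (mem_univ i)],
    fun j hj => by rw [e, Lagrange.eval_basis_of_ne hj.symm (mem_univ j)]⟩

/-- The box lemma. -/
lemma box_lemma [Infinite K] (ht : Function.Injective t) (X Y : ι → V →ₗ[K] V')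
    (hXY : ∀ i v, X i v = Y i v → v = 0) (A : ℕ) : ∀ B, A + B + 1 ≤ Fintype.card ι →
    ∀ f ∈ Box K V A B, (∀ i j, i ≠ j → X i (f (t i) (t j)) = Y j (f (t i) (t j))) → f = 0 := by
  induction A with
  | zero => intro B _ f hf _; exact Box.zero_left hf
  | succ A ih =>
    intro B hB f hf h
    rcases B with _ | B
    · exact Box.zero_right hf
    have hd : ∀ i, f (t i) (t i) = 0 := by
      intro i0
      obtain ⟨l, hl, e1, e0⟩ := exists_delta ht (A := Fintype.card ι - 2 - A) (B := A + 1)
        (by omega) i0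
      have hm := Box.mul hl hf
      have z1 : ∀ i, ∑ j, lam t j • l (t i) (t j) • f (t i) (t j) = 0 := fun i =>
        Pol.sum0 ht (by omega) (Box.row hm (t i))
      have z2 : ∀ j, ∑ i, lam t i • l (t i) (t j) • f (t i) (t j) = 0 := fun j =>
        Pol.sum0 ht (by omega) (Box.col hm (t j))
      have z : ∑ i, ∑ j, (lam t i * lam t j * l (t i) (t j)) •
          (X i (f (t i) (t j)) - Y j (f (t i) (t j))) = 0 := by
        simp only [smul_sub, sum_sub_distrib]
        rw [sum_comm (f := fun i j => (lam t i * lam t j * l (t i) (t j)) • Y j (f (t i) (t j)))]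
        rw [sum_eq_zero, sum_eq_zero, sub_zero]
        · intro j _
          have := congrArg (fun x => lam t j • Y j x) (z2 j)
          simp only [map_sum, map_smul, smul_sum, smul_smul, map_zero, smul_zero] at this
          rw [← this]
          exact sum_congr rfl fun i _ => by congr 1; ring
        · intro i _
          have := congrArg (fun x => lam t i • X i x) (z1 i)
          simp only [map_sum, map_smul, smul_sum, smul_smul, map_zero, smul_zero] at this
          rw [← this]
          exact sum_congr rfl fun j _ => by congr 1; ring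
      rw [sum_eq_single i0, sum_eq_single i0, e1, mul_one] at z
      · exact hXY i0 _ (sub_eq_zero.1 ((smul_eq_zero.1 z).resolve_left
          (mul_ne_zero (lam_ne ht i0) (lam_ne ht i0))))
      · intro j _ hj; rw [h i0 j hj.symm, sub_self, smul_zero]
      · simp
      · intro i _ hi
        refine sum_eq_zero fun j _ => ?_
        by_cases hij : i = j
        · subst hij; rw [e0 i hi, mul_zero, zero_smul]
        · rw [h i j hij, sub_self, smul_zero]
      · simp
    obtain ⟨g, hg, e⟩ := Box.div hf (Pol.eq_zero ht (by omega) (Box.diag hf) hd)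
    have : g = 0 := ih B (by omega) g hg fun i j hij => by
      have := h i j hij
      rw [e, map_smul, map_smul] at this
      exact smul_right_injective _ (sub_ne_zero.2 fun h => hij (ht h)) this
    ext s t'
    simp [e, this]

end nodes

end Vale.Agent.P040
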