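import Vale.Agent.P040.Alg1

open Finset

namespace Vale.Agent.P040

variable {K : Type*} [Field K] {κ : Type*} [Fintype κ] [DecidableEq κ] {u : κ → K}

/-- Weighted sum over the grid of nodes. -/
noncomputable def S2 (u : κ → K) (F : κ → κ → K) : K := ∑ j, ∑ j', lam u j * lam u j' * F j j'

lemma S2_add (F G : κ → κ → K) : S2 u (fun j j' => F j j' + G j j') = S2 u F + S2 u G := by
  simp [S2, mul_add, sum_add_distrib]

lemma S2_mul (c : K) (F : κ → κ → K) : S2 u (fun j j' => c * F j j') = c * S2 u F := by
  simp only [S2, mul_sum]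
  exact sum_congr rfl fun _ _ => sum_congr rfl fun _ _ => by ring

lemma S2_sum {α : Type*} (s : Finset α) (F : α → κ → κ → K) :
    S2 u (fun j j' => ∑ a ∈ s, F a j j') = ∑ a ∈ s, S2 u (F a) := by
  classical
  induction s using Finset.induction_on with
  | empty => simp [S2]
  | insert a s ha ih => simp only [sum_insert ha, S2_add, ih]

lemma S2_swap (F : κ → κ → K) : S2 u (fun j j' => F j' j) = S2 u F := by
  unfold S2; rw [sum_comm]
  exact sum_congr rfl fun _ _ => sum_congr rfl fun _ _ => by ring

lemma S2_diag (e : κ → K) : S2 u (fun j j' => if j = j' then e j else 0) =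
    ∑ j, lam u j ^ 2 * e j := by
  simp [S2, sq]

lemma S2_row (hu : Function.Injective u) {C D : ℕ} (hD : D + 1 ≤ Fintype.card κ)
    {F : K → K → K} (hF : F ∈ Box K K C D) (r : κ → K) :
    S2 u (fun j j' => r j * F (u j) (u j')) = 0 := by
  refine sum_eq_zero fun j _ => ?_
  have := congrArg (fun x => lam u j * r j * x) (Pol.sum0 hu hD (Box.row hF (u j)))
  simp only [mul_sum, smul_eq_mul, mul_zero] at this
  rw [← this]
  exact sum_congr rfl fun _ _ => by ring

lemma S2_col (hu : Function.Injective u) {C D : ℕ} (hC : C + 1 ≤ Fintype.card κ)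
    {F : K → K → K} (hF : F ∈ Box K K C D) (r : κ → K) :
    S2 u (fun j j' => r j' * F (u j) (u j')) = 0 := by
  rw [← S2_swap]; exact S2_row hu hC (Box.swap hF) r

variable (K) in
/-- Even polynomial functions. -/
def Ev (N : ℕ) : AddSubmonoid (K → K) :=
  AddSubmonoid.closure {f | ∃ k < N, ∃ c : K, f = fun s => c * (s ^ k) ^ 2}

lemma Ev.ind {N : ℕ} {p : (K → K) → Prop} (h0 : p 0) (ha : ∀ f g, p f → p g → p (f + g))
    (hm : ∀ k < N, ∀ c : K, p fun s => c * (s ^ k) ^ 2) {f : K → K} (hf : f ∈ Ev K N) : p f := by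
  induction hf using AddSubmonoid.closure_induction with
  | mem x hx => obtain ⟨k, hk, v, rfl⟩ := hx; exact hm k hk v
  | zero => exact h0
  | add x y _ _ hx hy => exact ha x y hx hy

variable [CharP K 2]

lemma deriv_mem (Q : Polynomial K) {N : ℕ} (hQ : Q.natDegree ≤ N) :
    (fun x => Q.derivative.eval x) ∈ Ev K ((N + 1) / 2) := by
  rcases N with _ | N
  · have : Q.derivative = 0 := Polynomial.derivative_of_natDegree_zero (by omega)
    simp only [this, Polynomial.eval_zero]; exact zero_mem _
  have h1 : Q.derivative.natDegree < N + 1 := by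
    have := Polynomial.natDegree_derivative_le Q; omega
  have : (fun x => Q.derivative.eval x) =
      ∑ k ∈ range (N + 1), fun s => Q.coeff (k + 1) * (k + 1) * s ^ k := by
    ext s; rw [Polynomial.eval_eq_sum_range' h1]; simp [Polynomial.coeff_derivative]
  rw [this]
  refine sum_mem fun k hk => ?_
  have hk := mem_range.1 hk
  rcases Nat.even_or_odd' k with ⟨a, rfl | rfl⟩
  · refine AddSubmonoid.subset_closure ⟨a, by omega, Q.coeff (2 * a + 1) * ((2 * a : ℕ) + 1), ?_⟩
    ext s; rw [← pow_mul, mul_comm a 2]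
  · have : ((2 * a + 1 : ℕ) : K) + 1 = 0 := by
      push_cast
      rw [add_assoc, one_add_one_eq_two, CharTwo.two_eq_zero]; ring
    simp only [this, mul_zero, zero_mul]; exact zero_mem _

lemma lemS (hu : Function.Injective u) (Z : κ → κ → K)
    (hZ : ∀ k < Fintype.card κ / 2 + 1, ∀ l < (Fintype.card κ + 1) / 2,
      S2 u (fun j j' => Z j j' * (u j ^ k * u j' ^ l)) = 0) :
    S2 u (fun j j' => u j * Z j j' ^ 2) = 0 := by
  set P := Lagrange.nodal univ u
  have hP : P.natDegree = Fintype.card κ := by simp [P, Lagrange.natDegree_nodal]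
  have h2 := deriv_mem P hP.le
  have h1 := deriv_mem (Polynomial.X * P) (N := Fintype.card κ + 1)
    (Polynomial.natDegree_mul_le.trans (by simp [hP, add_comm]))
  rw [show (Fintype.card κ + 1 + 1) / 2 = Fintype.card κ / 2 + 1 by omega] at h1
  have key : ∀ g1 ∈ Ev K (Fintype.card κ / 2 + 1), ∀ g2 ∈ Ev K ((Fintype.card κ + 1) / 2),
      ∑ j, ∑ j', g1 (u j) * g2 (u j') * (lam u j * lam u j' * Z j j') ^ 2 = 0 := by
    intro g1 m1 g2 m2
    refine Ev.ind (p := fun g1 => ∑ j, ∑ j', g1 (u j) * g2 (u j') *
      (lam u j * lam u j' * Z j j') ^ 2 = 0) (by simp) ?_ ?_ m1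
    · intro f g e1 e2; simp only [Pi.add_apply, add_mul, sum_add_distrib, e1, e2, add_zero]
    intro k hk c
    refine Ev.ind (p := fun g2 => ∑ j, ∑ j', (c * (u j ^ k) ^ 2) * g2 (u j') *
      (lam u j * lam u j' * Z j j') ^ 2 = 0) (by simp) ?_ ?_ m2
    · intro f g e1 e2
      simp only [Pi.add_apply, add_mul, mul_add, sum_add_distrib, e1, e2, add_zero]
    intro l hl c'
    have := congrArg (fun x => c * c' * x ^ 2) (hZ k hk l hl)
    simp only [S2, CharTwo.sum_sq, mul_sum] at this
    rw [show c * c' * (0:K) ^ 2 = 0 by ring] at this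
    rw [← this]
    exact sum_congr rfl fun _ _ => sum_congr rfl fun _ _ => by ring
  rw [← key _ h1 _ h2]
  refine sum_congr rfl fun j _ => sum_congr rfl fun j' _ => ?_
  have e : ∀ j, P.derivative.eval (u j) * lam u j = 1 := fun j => by
    have := lam_ne hu j
    unfold lam at this ⊢
    rw [Lagrange.nodalWeight_eq_eval_derivative_nodal (mem_univ j)] at this ⊢
    exact mul_inv_cancel₀ (fun h => this (by rw [h, inv_zero]))
  have e0 : P.eval (u j) = 0 := Lagrange.eval_nodal_at_node (mem_univ j)
  simp only [Polynomial.derivative_mul, Polynomial.derivative_X, one_mul, Polynomial.eval_add,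
    Polynomial.eval_mul, Polynomial.eval_X, e0, zero_add]
  have e1 := e j
  have e2 := e j'
  linear_combination (-(u j * lam u j * lam u j' * Z j j' ^ 2 * P.derivative.eval (u j') * lam u j')) * e1
    - (u j * lam u j * lam u j' * Z j j' ^ 2) * e2

/-- Linear independence of the nodes over the subfield of squares. -/
def SqInd (u : κ → K) : Prop := ∀ c : κ → K, ∑ j, u j * c j ^ 2 = 0 → ∀ j, c j = 0

lemma SqInd.inj (h : SqInd u) : Function.Injective u := by
  intro j j' e
  by_contra hne
  have := h (Pi.single j 1 + Pi.single j' 1) (by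
    simp only [Pi.add_apply, CharTwo.add_sq, mul_add, sum_add_distrib]
    rw [sum_eq_single j, sum_eq_single j']
    · simp [e, CharTwo.add_self_eq_zero]
    · intro b _ hb; simp [hb]
    · simp
    · intro b _ hb; simp [hb]
    · simp) j
  simp [hne] at this

/-- A tournament on the index set, with values in the field. -/
def Tour (θ : κ → κ → K) : Prop :=
  (∀ j j', θ j j' ^ 2 = θ j j') ∧ ∀ j j', j ≠ j' → θ j j' + θ j' j = 1

lemma step1 (h : SqInd u) {θ : κ → κ → K} (hθ : Tour θ) {A B : ℕ} (hAB : A + B ≤ Fintype.card κ)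
    {f : K → K → K} (hf : f ∈ Box K K A B)
    (H : S2 u (fun j j' => θ j j' * (u j - u j') * f (u j) (u j') * f (u j') (u j)) = 0) (j : κ) :
    f (u j) (u j) = 0 := by
  have hpos := Fintype.card_pos_iff.2 ⟨j⟩
  have h1 := S2_row h.inj (by omega) (Box.mul hf (Box.swap hf)) u
  have h2 : S2 u (fun j j' => θ j j' * (u j - u j') * f (u j) (u j') * f (u j') (u j)) =
      S2 u (fun j j' => θ j j' * u j * f (u j) (u j') * f (u j') (u j)) +
      S2 u (fun j j' => θ j' j * u j * f (u j) (u j') * f (u j') (u j)) := by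
    rw [← S2_swap (fun j j' => θ j' j * u j * f (u j) (u j') * f (u j') (u j)), ← S2_add]
    congr 1; ext j j'; rw [CharTwo.sub_eq_add]; ring
  rw [H, ← S2_add] at h2
  have h3 : S2 u (fun j j' => u j * f (u j) (u j') • f (u j') (u j)) = S2 u (fun j j' =>
      θ j j' * u j * f (u j) (u j') * f (u j') (u j) + θ j' j * u j * f (u j) (u j') * f (u j') (u j))
      + S2 u (fun j j' => if j = j' then u j * f (u j) (u j) ^ 2 else 0) := by
    rw [← S2_add]; congr 1; ext j j'
    split_ifs with e
    · subst e; rw [CharTwo.add_self_eq_zero, smul_eq_mul]; ring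
    · have := hθ.2 j j' e
      rw [smul_eq_mul]
      linear_combination (-(u j * f (u j) (u j') * f (u j') (u j))) * this
  rw [h1, ← h2, zero_add, S2_diag] at h3
  have := h (fun j => lam u j * f (u j) (u j)) (by
    rw [h3]; exact sum_congr rfl fun _ _ => by ring) j
  exact (mul_eq_zero.1 this).resolve_left (lam_ne h.inj j)

lemma step2 [Infinite K] (h : SqInd u) {θ : κ → κ → K} (hθ : Tour θ) {A0 B0 : ℕ}
    (hA : A0 = (Fintype.card κ - 1) / 2) (hB : B0 = Fintype.card κ / 2) (hn : 1 ≤ Fintype.card κ)
    {g : K → K → K} (hg : g ∈ Box K K (A0 - 1) (B0 - 1))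
    (H : ∀ G ∈ Box K K B0 A0, S2 u (fun j j' =>
      θ j j' * (u j - u j') * ((u j - u j') * g (u j) (u j')) * G (u j) (u j')) = 0) :
    ∀ G ∈ Box K K B0 A0,
      S2 u (fun j j' => θ j j' * (u j - u j') * g (u j) (u j') * G (u j) (u j')) = 0 := by
  set τ : κ → κ → K := fun j j' => θ j j' * (u j - u j') * g (u j) (u j') with hτ
  choose l hl l1 l0 using exists_delta h.inj (A := B0) (B := A0) (by omega)
  set φ : κ → K := fun i => S2 u (fun j j' => τ j j' * l i (u j) (u j'))
  have key : ∀ G ∈ Box K K (B0 + 1) (A0 + 1),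
      S2 u (fun j j' => τ j j' * G (u j) (u j')) = ∑ i, G (u i) (u i) * φ i := by
    intro G hG
    have hm : (G - ∑ i, fun s t => G (u i) (u i) • l i s t) ∈ Box K K (B0 + 1) (A0 + 1) :=
      Box.sub hG (sum_mem fun i _ => Box.const_smul _ (hl i))
    obtain ⟨G', hG', e⟩ := Box.div hm (Pol.eq_zero h.inj (by omega) (Box.diag hm) fun j => by
      simp only [Pi.sub_apply, Finset.sum_apply, smul_eq_mul]
      rw [sum_eq_single j, l1, mul_one, sub_self]
      · intro i _ hi; rw [l0 i j hi.symm, mul_zero]
      · simp)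
    have e' : ∀ s t, G s t = (s - t) * G' s t + ∑ i, G (u i) (u i) * l i s t := fun s t => by
      have := e s t
      simp only [Pi.sub_apply, Finset.sum_apply, smul_eq_mul] at this
      linear_combination this
    have : S2 u (fun j j' => τ j j' * G (u j) (u j')) = S2 u (fun j j' =>
        θ j j' * (u j - u j') * ((u j - u j') * g (u j) (u j')) * G' (u j) (u j')) +
        S2 u (fun j j' => ∑ i, G (u i) (u i) * (τ j j' * l i (u j) (u j'))) := by
      rw [← S2_add]; congr 1; ext j j'
      rw [e' (u j) (u j'), mul_add, mul_sum]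
      congr 1
      · simp only [hτ]; ring
      · exact sum_congr rfl fun _ _ => by ring
    rw [this, H G' hG', zero_add, S2_sum]
    exact sum_congr rfl fun i _ => S2_mul _ _
  set e : κ → K := fun i => φ i / lam u i ^ 2 with he
  have hS := lemS h.inj (fun j j' => τ j j' + if j = j' then e j else 0) (by
    intro k hk l' hl'
    have h1 := key _ (Box.mono_mem (k := k) (l := l') (by omega) (by omega) (1:K))
    simp only [smul_eq_mul, mul_one] at h1
    have : S2 u (fun j j' => (τ j j' + if j = j' then e j else 0) * (u j ^ k * u j' ^ l')) =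
        S2 u (fun j j' => τ j j' * (u j ^ k * u j' ^ l')) +
        S2 u (fun j j' => if j = j' then e j * (u j ^ k * u j ^ l') else 0) := by
      rw [← S2_add]; congr 1; ext j j'
      split_ifs with e
      · subst e; ring
      · ring
    rw [this, h1, S2_diag, ← sum_add_distrib]
    refine sum_eq_zero fun i _ => ?_
    have := lam_ne h.inj i
    rw [he, ← CharTwo.sub_eq_add]; field_simp; ring)
  have hm : (fun s t : K => (s ^ 1 * t ^ 0) • (1:K) • (s - t) • g s t) ∈
      Box K K (B0 + 1) (A0 + 1) := by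
    have := Box.mul (Box.mono_mem (K := K) (A := 2) (B := 1) (k := 1) (l := 0) (by omega) (by omega)
      (1:K)) (Box.mul Box.lin hg)
    rcases Nat.eq_zero_or_pos A0 with h0 | h0
    · have : g = 0 := by rw [h0] at hg; exact Box.zero_left hg
      simp only [this, Pi.zero_apply, smul_zero]; exact zero_mem _
    simp only [smul_assoc] at this
    exact Box.le (by omega) (by omega) this
  have h1 := key _ hm
  simp only [sub_self, zero_smul, smul_zero, zero_mul, sum_const_zero] at h1
  have h2 : S2 u (fun j j' => u j * (τ j j' + if j = j' then e j else 0) ^ 2) =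
      S2 u (fun j j' => τ j j' * (u j ^ 1 * u j' ^ 0) • (1:K) • (u j - u j') • g (u j) (u j')) +
      S2 u (fun j j' => if j = j' then u j * e j ^ 2 else 0) := by
    rw [← S2_add]; congr 1; ext j j'
    have := hθ.1 j j'
    simp only [hτ, smul_eq_mul]
    split_ifs with e'
    · subst e'; ring
    · linear_combination (u j * (u j - u j') ^ 2 * g (u j) (u j') ^ 2) * this
  rw [hS, h1, zero_add, S2_diag] at h2
  have h3 := h (fun j => lam u j * e j) (by rw [h2]; exact sum_congr rfl fun _ _ => by ring)
  have h4 : ∀ i, φ i = 0 := fun i => by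
    have h5 := lam_ne h.inj i
    have := (mul_eq_zero.1 (h3 i)).resolve_left h5
    simpa [he, h5] using this
  intro G hG
  have := key G (Box.le (by omega) (by omega) hG)
  simpa [h4] using this

/-- Tournament forms are nondegenerate. -/
lemma radical [Infinite K] (h : SqInd u) {θ : κ → κ → K} (hθ : Tour θ) {A0 B0 : ℕ}
    (hA : A0 = (Fintype.card κ - 1) / 2) (hB : B0 = Fintype.card κ / 2) (A : ℕ) :
    ∀ B, A ≤ A0 → B ≤ B0 → ∀ f ∈ Box K K A B, (∀ G ∈ Box K K B0 A0,
      S2 u (fun j j' => θ j j' * (u j - u j') * f (u j) (u j') * G (u j) (u j')) = 0) → f = 0 := by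
  induction A with
  | zero => intro B _ _ f hf _; exact Box.zero_left hf
  | succ A ih =>
    intro B hA' hB' f hf H
    rcases B with _ | B
    · exact Box.zero_right hf
    have hd := step1 h hθ (by omega) hf (H _ (Box.le hB' hA' (Box.swap hf)))
    obtain ⟨g, hg, e⟩ := Box.div hf (Pol.eq_zero h.inj (by omega) (Box.diag hf) hd)
    have : g = 0 := ih B (by omega) (by omega) g hg
      (step2 h hθ hA hB (by omega) (Box.le (by omega) (by omega) hg) fun G hG => by
        simpa only [e, smul_eq_mul] using H G hG)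
    ext s t
    simp [e, this]

end Vale.Agent.P040
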