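import Vale.Agent.P040.Alg2

open Finset

namespace Vale.Agent.P040

variable {K : Type*} [Field K] {V : Type*} [AddCommGroup V] [Module K V]

/-- The polynomial function with given coefficients. -/
def evB {A B : ℕ} (x : Fin A × Fin B → V) (s t : K) : V :=
  ∑ q : Fin A × Fin B, (s ^ (q.1 : ℕ) * t ^ (q.2 : ℕ)) • x q

lemma evB_mem {A B : ℕ} (x : Fin A × Fin B → V) : evB (K := K) x ∈ Box K V A B := by
  have : evB (K := K) x = ∑ q : Fin A × Fin B,
      fun s t : K => (s ^ (q.1 : ℕ) * t ^ (q.2 : ℕ)) • x q := by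
    ext s t; simp [evB]
  rw [this]
  exact sum_mem fun q _ => Box.mono_mem q.1.2 q.2.2 _

lemma coef_zero' [Infinite K] {N : ℕ} (v : Fin N → V)
    (h : ∀ s : K, ∑ n : Fin N, s ^ (n : ℕ) • v n = 0) (n : Fin N) : v n = 0 := by
  have := coef_zero (K := K) (N := N) (fun n => if h : n < N then v ⟨n, h⟩ else 0) (fun s => by
    rw [← Fin.sum_univ_eq_sum_range (fun n => s ^ n • if h : n < N then v ⟨n, h⟩ else 0)]
    simpa using h s) n.2
  simpa using this

lemma evB_inj [Infinite K] {A B : ℕ} (x : Fin A × Fin B → V) (h : evB (K := K) x = 0) : x = 0 := by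
  ext ⟨k, l⟩
  refine coef_zero' (K := K) (fun l => x (k, l)) (fun t => ?_) l
  refine coef_zero' (K := K) (fun k => ∑ l : Fin B, t ^ (l : ℕ) • x (k, l)) (fun s => ?_) k
  have := congrFun (congrFun h s) t
  simpa [evB, Fintype.sum_prod_type, smul_sum, smul_smul] using this

variable {ι κ : Type*} [Fintype ι] [DecidableEq ι] [Fintype κ] [DecidableEq κ] {t : ι → K}
  {u : κ → K}

/-- The bilinear form of a matrix of multiplicities. -/
noncomputable def form (u : κ → K) (A B : ℕ) (b : κ → κ → K) :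
    (Fin A × Fin B → K) →ₗ[K] (Fin B × Fin A → K) where
  toFun x q := S2 u fun j j' =>
    b j j' * ((u j - u j') * evB x (u j) (u j') * (u j ^ (q.1 : ℕ) * u j' ^ (q.2 : ℕ)))
  map_add' x y := by
    ext q; rw [Pi.add_apply, ← S2_add]; congr 1; ext j j'
    simp only [evB, Pi.add_apply, smul_add, sum_add_distrib]; ring
  map_smul' c x := by
    ext q; rw [Pi.smul_apply, smul_eq_mul, RingHom.id_apply, ← S2_mul]; congr 1; ext j j'
    have : evB (c • x) (u j) (u j') = c * evB x (u j) (u j') := by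
      simp only [evB, Pi.smul_apply, smul_eq_mul, mul_sum]
      exact sum_congr rfl fun _ _ => by ring
    rw [this]; ring

lemma prod_mem {A B : ℕ} {f g : K → K → K} (hf : f ∈ Box K K A B) (hg : g ∈ Box K K B A)
    (h : 1 ≤ A + B) : (fun s t => (s - t) * f s t * g s t) ∈ Box K K (A + B) (A + B) := by
  have := Box.mul Box.lin (Box.mul hf hg)
  simp only [smul_eq_mul, ← mul_assoc] at this
  exact Box.le (by omega) (by omega) this

lemma split (hu : Function.Injective u) {N : ℕ} (hN : N + 1 ≤ Fintype.card κ) {H : K → K → K}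
    (hH : H ∈ Box K K N N) (h0 : ∀ s, H s s = 0) {c b b' : κ → κ → K} {r r' : κ → K}
    (hc : ∀ j j', j ≠ j' → c j j' = r j + r' j' + b j j' + b' j j') :
    S2 u (fun j j' => c j j' * H (u j) (u j')) =
      S2 u (fun j j' => b j j' * H (u j) (u j')) + S2 u (fun j j' => b' j j' * H (u j) (u j')) := by
  rw [← zero_add (S2 u (fun j j' => b j j' * H (u j) (u j'))), ← S2_col hu hN hH r',
    ← zero_add (S2 u (fun j j' => r' j' * H (u j) (u j'))), ← S2_row hu hN hH r, ← S2_add,
    ← S2_add, ← S2_add]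
  congr 1; ext j j'
  by_cases e : j = j'
  · simp [e, h0]
  · rw [hc j j' e]; ring

variable [CharP K 2] [Infinite K]

lemma inj_main (ht : Function.Injective t) (hu : SqInd u) {A B A0 B0 : ℕ}
    (hAB : A + B + 1 ≤ Fintype.card ι) (hA : A0 = (Fintype.card κ - 1) / 2)
    (hB : B0 = Fintype.card κ / 2) {c : ι → ι → κ → κ → K} {r r' : ι → ι → κ → K}
    {b b' : ι → κ → κ → K}
    (hc : ∀ i i' j j', i ≠ i' → j ≠ j' → c i i' j j' = r i i' j + r' i i' j' + b i j j' + b' i' j j')
    (hT : ∀ i, Tour fun j j' => b i j j' + b' i j j') {F : K → K → (Fin A0 × Fin B0 → K)}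
    (hF : F ∈ Box K _ A B) (h0 : ∀ i i' j j', i ≠ i' → j ≠ j' → c i i' j j' ≠ 0 →
      evB (F (t i) (t i')) (u j) (u j') = 0) : F = 0 := by
  refine box_lemma ht (fun i => form u A0 B0 (b i)) (fun i => form u A0 B0 (b' i)) ?_ A B hAB F hF ?_
  · intro i x hx
    refine evB_inj (K := K) x (radical hu (hT i) hA hB A0 B0 le_rfl le_rfl _ (evB_mem x) fun G hG => ?_)
    refine Box.ind (p := fun G => S2 u (fun j j' => (b i j j' + b' i j j') * (u j - u j') *
      evB x (u j) (u j') * G (u j) (u j')) = 0) (by simp [S2]) ?_ ?_ hG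
    · intro f g e1 e2
      rw [← add_zero (0:K)]
      nth_rewrite 1 [← e1]
      rw [← e2, ← S2_add]; congr 1; ext j j'; simp only [Pi.add_apply]; ring
    · intro k hk l hl v
      have := congrFun hx (⟨k, hk⟩, ⟨l, hl⟩)
      simp only [form, LinearMap.coe_mk, AddHom.coe_mk] at this
      rw [← sub_eq_zero, CharTwo.sub_eq_add, ← S2_add] at this
      rw [← mul_zero v, ← this, ← S2_mul]; congr 1; ext j j'; simp only [smul_eq_mul]; ring
  · intro i i' hi
    ext q
    have h1 := q.1.2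
    have h2 := q.2.2
    have := split hu.inj (N := A0 + B0) (by omega) (prod_mem (evB_mem (F (t i) (t i')))
      (Box.mono_mem q.1.2 q.2.2 (1:K)) (by omega)) (by simp) (fun j j' => hc i i' j j' hi)
    simp only [smul_eq_mul, mul_one] at this
    simp only [form, LinearMap.coe_mk, AddHom.coe_mk]
    rw [← sub_eq_zero, CharTwo.sub_eq_add, ← this]
    refine sum_eq_zero fun j _ => sum_eq_zero fun j' _ => ?_
    by_cases e : j = j'
    · simp [e]
    by_cases e' : c i i' j j' = 0
    · simp [e']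
    · simp [h0 i i' j j' hi e e']

theorem count (ht : Function.Injective t) (hu : SqInd u) {c : ι → ι → κ → κ → K}
    {r r' : ι → ι → κ → K} {b b' : ι → κ → κ → K}
    (hc : ∀ i i' j j', i ≠ i' → j ≠ j' → c i i' j j' = r i i' j + r' i i' j' + b i j j' + b' i' j j')
    (hT : ∀ i, Tour fun j j' => b i j j' + b' i j j')
    (hs : ∀ i i' j j', i ≠ i' → j ≠ j' → c i' i j' j = c i i' j j')
    (S : Finset ((ι × ι) × κ × κ))
    (hS : ∀ p, p ∈ S ↔ p.1.1 ≠ p.1.2 ∧ p.2.1 ≠ p.2.2 ∧ c p.1.1 p.1.2 p.2.1 p.2.2 ≠ 0) :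
    2 * ((Fintype.card ι / 2 * ((Fintype.card ι - 1) / 2)) *
      (Fintype.card κ / 2 * ((Fintype.card κ - 1) / 2))) ≤ S.card := by
  set A := (Fintype.card ι - 1) / 2 with hA
  set B := Fintype.card ι / 2 with hB
  set A0 := (Fintype.card κ - 1) / 2 with hA0
  set B0 := Fintype.card κ / 2 with hB0
  rcases Nat.eq_zero_or_pos A with h0 | hApos
  · simp [h0]
  rcases Nat.eq_zero_or_pos A0 with h0 | hA0pos
  · simp [h0]
  let mono : (Fin A × Fin B) × (Fin A0 × Fin B0) → ι → ι → κ → κ → K := fun q i i' j j' =>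
    (t i ^ (q.1.1 : ℕ) * t i' ^ (q.1.2 : ℕ)) * (u j ^ (q.2.1 : ℕ) * u j' ^ (q.2.2 : ℕ))
  have hinj : ∀ x : (Fin A × Fin B) × (Fin A0 × Fin B0) → K, (∀ i i' j j', i ≠ i' → j ≠ j' →
      c i i' j j' ≠ 0 → ∑ q, mono q i i' j j' * x q = 0) → x = 0 := by
    intro x hx
    have := inj_main ht hu (A := A) (B := B) (by omega) hA0 hB0 hc hT
      (evB_mem (fun q q' => x (q, q'))) (fun i i' j j' h1 h2 h3 => by
        rw [← hx i i' j j' h1 h2 h3, Fintype.sum_prod_type, sum_comm]
        simp only [evB, Finset.sum_apply, Pi.smul_apply, smul_eq_mul, mul_sum, mono]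
        exact sum_congr rfl fun _ _ => sum_congr rfl fun _ _ => by ring)
    have := evB_inj _ this
    ext ⟨q, q'⟩
    exact congrFun (congrFun this q) q'
  let w : ι → ι → κ → κ → K := fun i i' j j' =>
    lam t i * lam t i' * (t i - t i') * (lam u j * lam u j' * (u j - u j')) * c i i' j j'
  let P : Matrix S ((Fin A × Fin B) × (Fin A0 × Fin B0)) K :=
    Matrix.of fun p q => mono q p.1.1.1 p.1.1.2 p.1.2.1 p.1.2.2
  let Q : Matrix S ((Fin A × Fin B) × (Fin A0 × Fin B0)) K :=
    Matrix.of fun p q => w p.1.1.1 p.1.1.2 p.1.2.1 p.1.2.2 * mono q p.1.1.2 p.1.1.1 p.1.2.2 p.1.2.1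
  have rk : ∀ M : Matrix S ((Fin A × Fin B) × (Fin A0 × Fin B0)) K,
      (∀ x, M.mulVec x = 0 → x = 0) → M.rank = B * A * (B0 * A0) := by
    intro M hM
    rw [Matrix.rank, LinearMap.finrank_range_of_inj
      ((injective_iff_map_eq_zero M.mulVecLin).2 hM)]
    simp; ring
  have rP := rk P fun x hx => hinj x fun i i' j j' h1 h2 h3 => by
    simpa [Matrix.mulVec, dotProduct, P] using
      congrFun hx ⟨((i, i'), (j, j')), (hS _).2 ⟨h1, h2, h3⟩⟩
  have rQ := rk Q fun x hx => hinj x fun i i' j j' h1 h2 h3 => by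
    have h3' : c i' i j' j ≠ 0 := by rwa [hs i i' j j' h1 h2]
    have := congrFun hx ⟨((i', i), (j', j)), (hS _).2 ⟨h1.symm, h2.symm, h3'⟩⟩
    simp only [Matrix.mulVec, dotProduct, Q, Matrix.of_apply, mul_assoc, ← mul_sum,
      Pi.zero_apply] at this
    refine (mul_eq_zero.1 this).resolve_left ?_
    exact mul_ne_zero (mul_ne_zero (mul_ne_zero (mul_ne_zero (lam_ne ht _) (lam_ne ht _))
      (sub_ne_zero.2 (ht.ne h1.symm))) (mul_ne_zero (mul_ne_zero (lam_ne hu.inj _)
      (lam_ne hu.inj _)) (sub_ne_zero.2 (hu.inj.ne h2.symm)))) h3'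
  have hz : P.transpose * Q = 0 := by
    ext q q'
    simp only [Matrix.mul_apply, Matrix.transpose_apply, P, Q, Matrix.of_apply, Matrix.zero_apply]
    rw [sum_coe_sort S (fun p => mono q p.1.1 p.1.2 p.2.1 p.2.2 *
      (w p.1.1 p.1.2 p.2.1 p.2.2 * mono q' p.1.2 p.1.1 p.2.2 p.2.1)),
      sum_subset (subset_univ S) (fun p _ hp => by
        rw [hS] at hp
        by_cases h1 : p.1.1 = p.1.2
        · simp [w, h1]
        by_cases h2 : p.2.1 = p.2.2
        · simp [w, h2]
        have : c p.1.1 p.1.2 p.2.1 p.2.2 = 0 := by tauto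
        simp [w, this])]
    have mG := prod_mem (Box.mono_mem q.1.1.2 q.1.2.2 (1:K)) (Box.mono_mem q'.1.2.2 q'.1.1.2 (1:K))
      (by omega)
    have mH := prod_mem (Box.mono_mem q.2.1.2 q.2.2.2 (1:K)) (Box.mono_mem q'.2.2.2 q'.2.1.2 (1:K))
      (by omega)
    simp only [smul_eq_mul, mul_one] at mG mH
    have key := split ht (N := A + B) (by omega) mG (by simp)
      (c := fun i i' => S2 u fun j j' => c i i' j j' * ((u j - u j') *
        (u j ^ (q.2.1 : ℕ) * u j' ^ (q.2.2 : ℕ)) * (u j ^ (q'.2.2 : ℕ) * u j' ^ (q'.2.1 : ℕ))))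
      (b := 0) (b' := 0) (fun i i' hi => by
        simpa using split hu.inj (N := A0 + B0) (by omega) mH (by simp)
          (fun j j' => hc i i' j j' hi))
    simp only [Pi.zero_apply, zero_mul, S2, mul_zero, sum_const_zero, add_zero, mul_sum,
      sum_mul] at key
    rw [← key]
    simp only [Fintype.sum_prod_type, mono, w]
    exact sum_congr rfl fun _ _ => sum_congr rfl fun _ _ => sum_congr rfl fun _ _ =>
      sum_congr rfl fun _ _ => by ring
  have := Matrix.rank_add_rank_le_card_of_mul_eq_zero hz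
  rw [Matrix.rank_transpose, rP, rQ, Fintype.card_coe] at this
  omega

/-- The generic field of characteristic two. -/
abbrev KK := FractionRing (MvPolynomial ℕ (ZMod 2))

instance : CharP KK 2 := charP_of_injective_algebraMap (R := ZMod 2)
  (FaithfulSMul.algebraMap_injective _ _) 2

instance : Infinite KK :=
  Infinite.of_injective _ (IsFractionRing.injective (MvPolynomial ℕ (ZMod 2)) KK)

lemma exists_sqInd (n : ℕ) : ∃ u : Fin n → KK, SqInd u := by
  refine ⟨fun j => algebraMap (MvPolynomial ℕ (ZMod 2)) KK (MvPolynomial.X j), fun c hc j => ?_⟩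
  obtain ⟨d, hd⟩ := IsLocalization.exist_integer_multiples_of_finite
    (nonZeroDivisors (MvPolynomial ℕ (ZMod 2))) c
  choose p hp using hd
  have h1 : ∑ i : Fin n, MvPolynomial.X (i : ℕ) * p i ^ 2 = 0 := by
    apply IsFractionRing.injective (MvPolynomial ℕ (ZMod 2)) KK
    simp only [map_sum, map_mul, map_pow, hp, map_zero, Algebra.smul_def]
    rw [← mul_zero (algebraMap _ KK (d : MvPolynomial ℕ (ZMod 2)) ^ 2), ← hc, mul_sum]
    exact sum_congr rfl fun _ _ => by ring
  have h2 := congrArg (MvPolynomial.pderiv (j : ℕ)) h1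
  have two : (2 : MvPolynomial ℕ (ZMod 2)) = 0 := CharTwo.two_eq_zero
  simp only [map_sum, Derivation.leibniz, Derivation.leibniz_pow, map_zero, nsmul_eq_mul,
    Nat.cast_ofNat, two, zero_mul, mul_zero, zero_add, MvPolynomial.pderiv_X, smul_eq_mul] at h2
  rw [sum_eq_single j] at h2
  · have h3 : p j = 0 := by simpa using h2
    have h4 := hp j
    rw [h3, map_zero, Algebra.smul_def] at h4
    refine (mul_eq_zero.1 h4.symm).resolve_left fun h => nonZeroDivisors.coe_ne_zero d ?_
    exact IsFractionRing.injective (MvPolynomial ℕ (ZMod 2)) KK (by rw [h, map_zero])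
  · intro i _ hi
    rw [Pi.single_eq_of_ne (fun h => hi (Fin.ext h)), mul_zero]
  · simp

end Vale.Agent.P040
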