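import Mathlib

namespace Vale.Agent.P040

/-- Vertices placed at distinct points of the plane, every edge represented by a simple continuous
arc between the points of its two ends, whose interior avoids all vertices. -/
structure Drawing {V : Type} (G : SimpleGraph V) where
  pos : V → ℝ × ℝ
  arc : G.edgeSet → unitInterval → ℝ × ℝ
  pos_injective : Function.Injective pos
  arc_continuous : ∀ e, Continuous (arc e)
  arc_injective : ∀ e, Function.Injective (arc e)
  ends : ∀ e : G.edgeSet, ∃ u v, (e : Sym2 V) = s(u, v) ∧ arc e 0 = pos u ∧ arc e 1 = pos v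
  avoids : ∀ e t v, t ≠ 0 → t ≠ 1 → arc e t ≠ pos v

/-- The interior of the arc of an edge (the arc without its two endpoints). -/
def Drawing.inner {V : Type} {G : SimpleGraph V} (D : Drawing G) (e : G.edgeSet) : Set (ℝ × ℝ) :=
  D.arc e '' {t | t ≠ 0 ∧ t ≠ 1}

/-- The crossing points: points lying in the interiors of two different edges. -/
def Drawing.crossings {V : Type} {G : SimpleGraph V} (D : Drawing G) : Set (ℝ × ℝ) :=
  {p | ∃ e f, e ≠ f ∧ p ∈ D.inner e ∧ p ∈ D.inner f}

/-- Edge interiors meet in finitely many points, each of them lies on exactly two edges and is a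
proper crossing: in a local chart around it the two arcs are the two coordinate axes. -/
structure Drawing.IsProper {V : Type} {G : SimpleGraph V} (D : Drawing G) : Prop where
  finite : D.crossings.Finite
  two : ∀ p e f g, p ∈ D.inner e → p ∈ D.inner f → p ∈ D.inner g → e = f ∨ e = g ∨ f = g
  transversal : ∀ p e f, e ≠ f → p ∈ D.inner e → p ∈ D.inner f →
    ∃ φ : OpenPartialHomeomorph (ℝ × ℝ) (ℝ × ℝ), p ∈ φ.source ∧ ∀ q ∈ φ.source,
      (q ∈ Set.range (D.arc e) ↔ (φ q).2 = 0) ∧ (q ∈ Set.range (D.arc f) ↔ (φ q).1 = 0)

/-- The crossing number: the least number of crossing points of a proper drawing. -/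
noncomputable def crossingNumber {V : Type} (G : SimpleGraph V) : ℕ :=
  sInf {c | ∃ D : Drawing G, D.IsProper ∧ D.crossings.ncard = c}

end Vale.Agent.P040
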