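import Vale.Agent.P040.Top
import Vale.Agent.P040.Defs

open Finset Sum

namespace Vale.Agent.P040

lemma Drawing.path {V : Type} {G : SimpleGraph V} (D : Drawing G) (e : G.edgeSet) {u v : V}
    (h : (e : Sym2 V) = s(u, v)) : ∃ γ : ℝ → ℝ × ℝ, Continuous γ ∧ γ 0 = D.pos u ∧ γ 1 = D.pos v ∧
      ∀ s, ∃ t, γ s = D.arc e t := by
  obtain ⟨u', v', h', h0, h1⟩ := D.ends e
  have hc := D.arc_continuous e
  have hp : Continuous (Set.projIcc (0:ℝ) 1 zero_le_one) := continuous_projIcc
  rw [h, Sym2.eq_iff] at h'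
  rcases h' with ⟨rfl, rfl⟩ | ⟨rfl, rfl⟩
  · exact ⟨fun s => D.arc e (Set.projIcc 0 1 zero_le_one s), hc.comp hp, by simpa using h0,
      by simpa using h1, fun s => ⟨_, rfl⟩⟩
  · exact ⟨fun s => D.arc e (Set.projIcc 0 1 zero_le_one (1 - s)), hc.comp (hp.comp (by fun_prop)),
      by simpa using h1, by simpa using h0, fun s => ⟨_, rfl⟩⟩

lemma Drawing.mem_of_eq {V : Type} {G : SimpleGraph V} (D : Drawing G) (e : G.edgeSet) {t v}
    (h : D.arc e t = D.pos v) : v ∈ (e : Sym2 V) := by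
  obtain ⟨u', v', h', h0, h1⟩ := D.ends e
  rw [h']
  by_cases t0 : t = 0
  · rw [t0, h0] at h; simp [D.pos_injective h]
  by_cases t1 : t = 1
  · rw [t1, h1] at h; simp [D.pos_injective h]
  exact absurd h (D.avoids e t v t0 t1)

lemma Drawing.mem_inner {V : Type} {G : SimpleGraph V} (D : Drawing G) {e f : G.edgeSet} {s t}
    (h : D.arc e s = D.arc f t) (hd : ∀ v ∈ (e : Sym2 V), v ∉ (f : Sym2 V)) :
    D.arc e s ∈ D.inner e := by
  obtain ⟨u', v', h', h0, h1⟩ := D.ends e
  refine ⟨s, ⟨?_, ?_⟩, rfl⟩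
  · rintro rfl
    exact hd u' (by simp [h']) (D.mem_of_eq f (h.symm.trans h0))
  · rintro rfl
    exact hd v' (by simp [h']) (D.mem_of_eq f (h.symm.trans h1))

/-- The edge joining `i` and `j`. -/
def ed {m n : ℕ} (i : Fin m) (j : Fin n) : (completeBipartiteGraph (Fin m) (Fin n)).edgeSet :=
  ⟨s(inl i, inr j), by simp⟩

lemma ed_inj {m n : ℕ} {i i' : Fin m} {j j' : Fin n} (h : ed i j = ed i' j') : i = i' ∧ j = j' := by
  simpa [ed] using h

theorem lower_pairs {m n : ℕ} (D : Drawing (completeBipartiteGraph (Fin m) (Fin n)))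
    (T : Finset ((Fin m × Fin m) × Fin n × Fin n))
    (hT : ∀ i i' j j', i ≠ i' → j ≠ j' → ∀ p ∈ D.inner (ed i j), p ∈ D.inner (ed i' j') →
      ((i, i'), (j, j')) ∈ T) :
    2 * ((m / 2 * ((m - 1) / 2)) * (n / 2 * ((n - 1) / 2))) ≤ T.card := by
  choose γ hc h0 h1 hr using fun i j => D.path (ed i j) (u := inl i) (v := inr j) rfl
  let c := Complex.equivRealProdCLM.symm
  refine pair_count (fun i => c (D.pos (inl i))) (fun j => c (D.pos (inr j)))
    (fun i j s => c (γ i j s)) (fun i j => c.continuous.comp (hc i j)) (fun i j => by rw [h0])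
    (fun i j => by rw [h1]) ?_ ?_ ?_ T ?_
  · intro i j s i' hi h
    obtain ⟨t, ht⟩ := hr i j s
    have := D.mem_of_eq _ (ht.symm.trans (c.injective h))
    simp [ed, hi] at this
  · intro i j s j' hj h
    obtain ⟨t, ht⟩ := hr i j s
    have := D.mem_of_eq _ (ht.symm.trans (c.injective h))
    simp [ed, hj] at this
  · intro i j h
    simpa using D.pos_injective (c.injective h)
  · intro i i' j j' hi hj s t h
    obtain ⟨s', hs⟩ := hr i j s
    obtain ⟨t', ht⟩ := hr i' j' t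
    have e : D.arc (ed i j) s' = D.arc (ed i' j') t' := by rw [← hs, ← ht]; exact c.injective h
    refine hT i i' j j' hi hj _ (D.mem_inner e ?_) (e ▸ D.mem_inner e.symm ?_)
    · simp [ed, hi, hj]
    · simp [ed, hi.symm, hj.symm]

theorem lower {m n : ℕ} (D : Drawing (completeBipartiteGraph (Fin m) (Fin n)))
    (hf : D.crossings.Finite)
    (two : ∀ p e f g, p ∈ D.inner e → p ∈ D.inner f → p ∈ D.inner g → e = f ∨ e = g ∨ f = g) :
    (m / 2 * ((m - 1) / 2)) * (n / 2 * ((n - 1) / 2)) ≤ D.crossings.ncard := by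
  classical
  let R : (Fin m × Fin m) × Fin n × Fin n → ℝ × ℝ → Prop := fun x p =>
    x.1.1 ≠ x.1.2 ∧ x.2.1 ≠ x.2.2 ∧ p ∈ D.inner (ed x.1.1 x.2.1) ∧ p ∈ D.inner (ed x.1.2 x.2.2)
  have h1 := lower_pairs D (univ.filter fun x => ∃ p, R x p)
    (fun i i' j j' hi hj p h h' => mem_filter.2 ⟨mem_univ _, p, hi, hj, h, h'⟩)
  have h2 := card_le_mul_card_image_of_maps_to (s := univ.filter fun x => ∃ p, R x p)
    (t := hf.toFinset) (f := fun x => Classical.epsilon (R x)) (fun x hx => by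
      obtain ⟨a, b, c, d⟩ := Classical.epsilon_spec (mem_filter.1 hx).2
      exact hf.mem_toFinset.2 ⟨_, _, fun h => a (ed_inj h).1, c, d⟩) 2 (fun p _ => by
      rcases (filter (fun x => Classical.epsilon (R x) = p)
        (univ.filter fun x => ∃ p, R x p)).eq_empty_or_nonempty with h | ⟨x, hx⟩
      · rw [h]; simp
      refine le_trans (card_le_card (t := {x, (x.1.swap, x.2.swap)}) fun y hy => ?_) card_le_two
      have k : ∀ z ∈ filter (fun x => Classical.epsilon (R x) = p)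
          (univ.filter fun x => ∃ p, R x p), R z p := fun z hz => by
        rw [mem_filter, mem_filter] at hz
        rw [← hz.2]; exact Classical.epsilon_spec hz.1.2
      obtain ⟨a, b, c, d⟩ := k x hx
      obtain ⟨a', b', c', d'⟩ := k y hy
      obtain ⟨⟨i, i'⟩, j, j'⟩ := x
      obtain ⟨⟨l, l'⟩, r, r'⟩ := y
      have t1 := two p _ _ _ c d c'
      have t2 := two p _ _ _ c d d'
      simp only [mem_insert, mem_singleton, Prod.mk.injEq, Prod.swap] at *
      rcases t1 with t1 | t1 | t1 <;> rcases t2 with t2 | t2 | t2 <;>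
        have := ed_inj t1 <;> have := ed_inj t2 <;> grind)
  rw [Set.ncard_eq_toFinset_card _ hf]
  omega

end Vale.Agent.P040
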