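import Vale.Agent.P040.Alg3

open Finset Complex

namespace Vale.Agent.P040

lemma exists_log {E : Type*} [NormedAddCommGroup E] [NormedSpace ℝ E] {g : E → ℂ}
    (hgc : Continuous g) (h0 : ∀ x, g x ≠ 0) :
    ∃ f : E → ℂ, Continuous f ∧ ∀ x, exp (f x) = g x := by
  rcases isCoveringMapOn_exp.existsUnique_continuousMap_lifts ⟨g, hgc⟩ (a₀ := 0) (exp_log (h0 0))
    (fun x ↦ h0 x) with ⟨f, ⟨-, hf⟩, -⟩
  exact ⟨f, f.continuous, fun x => congrFun hf x⟩

lemma exists_var {g : ℝ → ℂ} (hgc : Continuous g) (h0 : ∀ x, g x ≠ 0) :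
    ∃ k : ℤ, ∀ (L : ℝ → ℂ) (c : ℂ), Continuous L → (∀ s, exp (L s) = c * g s) →
      L 1 - L 0 = log (g 1) - log (g 0) + k * (2 * Real.pi * I) := by
  obtain ⟨f, hf, e⟩ := exists_log hgc h0
  obtain ⟨k, hk⟩ := (exp_eq_exp_iff_exists_int (x := f 1 - f 0) (y := log (g 1) - log (g 0))).1
    (by rw [exp_sub, exp_sub, e, e, exp_log (h0 _), exp_log (h0 _)])
  refine ⟨k, fun L c hL hc => ?_⟩
  have h1 : ∀ s, exp (L s - f s) = c := fun s => by
    rw [exp_sub, hc, e, mul_div_cancel_right₀ _ (h0 s)]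
  have := isCoveringMap_exp.const_of_comp (g := fun s => L s - f s) (hL.sub hf)
    (fun a a' => Subtype.ext (by simp only [h1])) 1 0
  rw [← hk]; linear_combination this

lemma exists_nu (p q : ℂ) : ∃ k : ℤ, p ≠ q →
    log (p - q) - log (q - p) = Real.pi * I + k * (2 * Real.pi * I) := by
  by_cases h : p = q
  · exact ⟨0, fun h' => absurd h h'⟩
  obtain ⟨k, hk⟩ := (exp_eq_exp_iff_exists_int (x := log (p - q) - log (q - p))
    (y := Real.pi * I)).1 (by
    have h1 : p - q ≠ 0 := sub_ne_zero.2 h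
    have h2 : q - p ≠ 0 := sub_ne_zero.2 (Ne.symm h)
    rw [exp_sub, exp_log h1, exp_log h2, exp_pi_mul_I, div_eq_iff h2]; ring)
  exact ⟨k, fun _ => hk⟩

lemma cast_sq (k : ℤ) : (k : KK) ^ 2 = k := by
  rcases Int.even_or_odd' k with ⟨a, rfl | rfl⟩ <;> push_cast <;> simp [CharTwo.two_eq_zero]

theorem pair_count {m n : ℕ} (a : Fin m → ℂ) (b : Fin n → ℂ) (γ : Fin m → Fin n → ℝ → ℂ)
    (hc : ∀ i j, Continuous (γ i j)) (h0 : ∀ i j, γ i j 0 = a i) (h1 : ∀ i j, γ i j 1 = b j)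
    (ha : ∀ i j s i', i' ≠ i → γ i j s ≠ a i') (hb : ∀ i j s j', j' ≠ j → γ i j s ≠ b j')
    (hab : ∀ i j, a i ≠ b j) (T : Finset ((Fin m × Fin m) × Fin n × Fin n))
    (hT : ∀ i i' j j', i ≠ i' → j ≠ j' → ∀ s t, γ i j s = γ i' j' t → ((i, i'), (j, j')) ∈ T) :
    2 * ((m / 2 * ((m - 1) / 2)) * (n / 2 * ((n - 1) / 2))) ≤ T.card := by
  classical
  have hA : ∀ i j i', ∃ k : ℤ, i' ≠ i → ∀ (L : ℝ → ℂ) (c : ℂ), Continuous L →
      (∀ s, exp (L s) = c * (γ i j s - a i')) →
      L 1 - L 0 = log (b j - a i') - log (a i - a i') + k * (2 * Real.pi * I) := by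
    intro i j i'
    by_cases h : i' = i
    · exact ⟨0, fun h' => absurd h h'⟩
    obtain ⟨k, hk⟩ := exists_var ((hc i j).sub continuous_const)
      (fun s => sub_ne_zero.2 (ha i j s i' h))
    exact ⟨k, fun _ => by simpa only [Pi.sub_apply, h0, h1] using hk⟩
  have hB : ∀ i j j', ∃ k : ℤ, j' ≠ j → ∀ (L : ℝ → ℂ) (c : ℂ), Continuous L →
      (∀ s, exp (L s) = c * (γ i j s - b j')) →
      L 1 - L 0 = log (b j - b j') - log (a i - b j') + k * (2 * Real.pi * I) := by
    intro i j j'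
    by_cases h : j' = j
    · exact ⟨0, fun h' => absurd h h'⟩
    obtain ⟨k, hk⟩ := exists_var ((hc i j).sub continuous_const)
      (fun s => sub_ne_zero.2 (hb i j s j' h))
    exact ⟨k, fun _ => by simpa only [Pi.sub_apply, h0, h1] using hk⟩
  choose kA hkA using hA
  choose kB hkB using hB
  choose ν hν using exists_nu
  have hI : (2 * Real.pi * I : ℂ) ≠ 0 := two_pi_I_ne_zero
  have hνs : ∀ p q, p ≠ q → ν p q + ν q p = -1 := fun p q h => by
    have e1 := hν p q h
    have e2 := hν q p h.symm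
    have : ((ν p q + ν q p + 1 : ℤ) : ℂ) * (2 * Real.pi * I) = 0 := by
      push_cast; linear_combination -e1 - e2
    have := (mul_eq_zero.1 this).resolve_right hI
    have : ν p q + ν q p + 1 = 0 := by exact_mod_cast this
    omega
  have haa : ∀ j i i', i ≠ i' → a i ≠ a i' := fun (j : Fin n) i i' h => by
    rw [← h0 i j]; exact ha i j 0 i' h.symm
  have hbb : ∀ i j j', j ≠ j' → b j ≠ b j' := fun (i : Fin m) j j' h => by
    rw [← h1 i j]; exact hb i j 1 j' h.symm
  let c : Fin m → Fin m → Fin n → Fin n → ℤ := fun i i' j j' =>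
    (ν (b j) (a i') + kA i j i' + ν (a i') (a i) + 2) + (ν (a i) (b j') - kA i' j' i) +
      (ν (b j') (b j) - kB i j j') + kB i' j' j
  have hz : ∀ i i' j j', i ≠ i' → j ≠ j' → (∀ s t, γ i j s ≠ γ i' j' t) → c i i' j j' = 0 := by
    intro i i' j j' hi hj h
    obtain ⟨L, hL, e⟩ := exists_log (g := fun x : ℝ × ℝ => γ i j x.1 - γ i' j' x.2)
      (by have := hc i j; have := hc i' j'; fun_prop) (fun x => sub_ne_zero.2 (h _ _))
    have e1 := hkA i j i' hi.symm (fun s => L (s, 0)) 1 (by fun_prop) (fun s => by simp [e, h0])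
    have e2 := hkB i j j' hj.symm (fun s => L (s, 1)) 1 (by fun_prop) (fun s => by simp [e, h1])
    have e3 := hkA i' j' i hi (fun s => L (0, s)) (-1) (by fun_prop) (fun s => by simp [e, h0])
    have e4 := hkB i' j' j hj (fun s => L (1, s)) (-1) (by fun_prop) (fun s => by simp [e, h1])
    have f1 := hν _ _ (hab i' j).symm
    have f2 := hν _ _ (haa j i' i hi.symm)
    have f3 := hν _ _ (hbb i j' j hj.symm)
    have f4 := hν _ _ (hab i j')
    have : ((c i i' j j' : ℤ) : ℂ) * (2 * Real.pi * I) = 0 := by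
      simp only [c]; push_cast
      linear_combination -e1 - e4 + e2 + e3 - f1 - f2 - f3 - f4
    exact_mod_cast (mul_eq_zero.1 this).resolve_right hI
  obtain ⟨t, ht⟩ := exists_sqInd m
  obtain ⟨u, hu⟩ := exists_sqInd n
  have := count ht.inj hu (c := fun i i' j j' => (c i i' j j' : KK))
    (r := fun i i' j => ((ν (b j) (a i') + kA i j i' + ν (a i') (a i) + 2 : ℤ) : KK))
    (r' := fun i i' j' => ((ν (a i) (b j') - kA i' j' i : ℤ) : KK))
    (b := fun i j j' => ((ν (b j') (b j) - kB i j j' : ℤ) : KK))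
    (b' := fun i' j j' => ((kB i' j' j : ℤ) : KK))
    (fun i i' j j' _ _ => by simp only [c]; push_cast; ring)
    (fun i => ⟨fun j j' => by beta_reduce; rw [← Int.cast_add, cast_sq], fun j j' h => by
      have := hνs _ _ (hbb i j j' h)
      beta_reduce
      rw [← Int.cast_add, ← Int.cast_add, ← Int.cast_add,
        show ν (b j') (b j) - kB i j j' + kB i j' j + (ν (b j) (b j') - kB i j' j + kB i j j') = -1
          by omega]
      simp [CharTwo.neg_eq]⟩)
    (fun i i' j j' hi hj => by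
      have f1 := hνs _ _ (hab i' j)
      have f2 := hνs _ _ (haa j i' i hi.symm)
      have f3 := hνs _ _ (hbb i j' j hj.symm)
      have f4 := hνs _ _ (hab i j')
      rw [show c i' i j' j = - c i i' j j' by simp only [c]; omega, Int.cast_neg, CharTwo.neg_eq])
    (univ.filter fun p => p.1.1 ≠ p.1.2 ∧ p.2.1 ≠ p.2.2 ∧ (c p.1.1 p.1.2 p.2.1 p.2.2 : KK) ≠ 0)
    (fun p => by simp)
  simp only [Fintype.card_fin] at this
  refine this.trans (card_le_card fun p hp => ?_)
  simp only [mem_filter, mem_univ, true_and] at hp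
  by_contra hn
  refine hp.2.2 ?_
  rw [hz _ _ _ _ hp.1 hp.2.1 fun s t e => hn (hT _ _ _ _ hp.1 hp.2.1 s t e), Int.cast_zero]

end Vale.Agent.P040
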