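import Vale.Agent.P040.Lower

open Finset Sum

namespace Vale.Agent.P040

/-- Reciprocal abscissas of the vertices on the first axis. -/
def pp (k : ℕ) : ℝ := (-1) ^ k * (k + 1)

/-- Reciprocal ordinates of the vertices on the second axis. -/
def qq (M : ℝ) (k : ℕ) : ℝ := (-1) ^ k * M ^ k

lemma abs_pp (k : ℕ) : |pp k| = k + 1 := by
  rw [pp, abs_mul, abs_pow, abs_neg, abs_one, one_pow, one_mul, abs_of_pos (by positivity)]

lemma abs_qq {M : ℝ} (hM : 1 < M) (k : ℕ) : |qq M k| = M ^ k := by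
  rw [qq, abs_mul, abs_pow, abs_neg, abs_one, one_pow, one_mul, abs_of_pos (by positivity)]

lemma pp_ne (k : ℕ) : pp k ≠ 0 := abs_pos.1 (by rw [abs_pp]; positivity)

lemma qq_ne {M : ℝ} (hM : 1 < M) (k : ℕ) : qq M k ≠ 0 := abs_pos.1 (by rw [abs_qq hM]; positivity)

lemma pp_inj {a b : ℕ} (h : pp a = pp b) : a = b := by
  have := congrArg abs h
  rw [abs_pp, abs_pp] at this
  exact_mod_cast add_right_cancel this

lemma qq_inj {M : ℝ} (hM : 1 < M) {a b : ℕ} (h : qq M a = qq M b) : a = b := by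
  have := congrArg abs h
  rw [abs_qq hM, abs_qq hM] at this
  exact pow_right_injective₀ (by positivity) hM.ne' this

lemma pp_sub_ge {a b : ℕ} (h : a ≠ b) : 1 ≤ |pp a - pp b| := by
  have h1 : pp a - pp b = (((-1) ^ a * (a + 1) - (-1) ^ b * (b + 1) : ℤ) : ℝ) := by simp [pp]
  have h2 : pp a - pp b ≠ 0 := sub_ne_zero.2 fun e => h (pp_inj e)
  rw [h1] at h2 ⊢
  exact_mod_cast Int.one_le_abs (by exact_mod_cast h2)

lemma pp_sub_le {a b m : ℕ} (ha : a < m) (hb : b < m) : |pp a - pp b| ≤ 2 * m := by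
  have := abs_sub (pp a) (pp b)
  rw [abs_pp, abs_pp] at this
  have h1 : (a:ℝ) + 1 ≤ m := by exact_mod_cast ha
  have h2 : (b:ℝ) + 1 ≤ m := by exact_mod_cast hb
  linarith

lemma parity {a b : ℕ} {u v x : ℝ} (hu : 0 < u) (hv : 0 < v) (h1 : 0 < (-1) ^ a * u * x)
    (h2 : 0 < (-1) ^ b * v * x) : a % 2 = b % 2 := by
  rcases Nat.even_or_odd a with ha | ha <;> rcases Nat.even_or_odd b with hb | hb <;>
    simp only [ha.neg_one_pow, hb.neg_one_pow] at h1 h2
  · rw [Nat.even_iff.1 ha, Nat.even_iff.1 hb]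
  · nlinarith [mul_pos hv h1, mul_pos hu h2]
  · nlinarith [mul_pos hv h1, mul_pos hu h2]
  · rw [Nat.odd_iff.1 ha, Nat.odd_iff.1 hb]

lemma tri {M C : ℝ} (hM : 1 < M) (hC : 2 * C < M) {j1 j2 j3 : ℕ} (h2 : j2 < j1) (h3 : j3 < j1)
    {c1 c2 c3 : ℝ} (e1 : 1 ≤ |c1|) (e2 : |c2| ≤ C) (e3 : |c3| ≤ C) :
    qq M j1 * c1 + qq M j2 * c2 + qq M j3 * c3 ≠ 0 := by
  intro h
  obtain ⟨k, rfl⟩ : ∃ k, j1 = k + 1 := ⟨j1 - 1, by omega⟩
  have a2 : M ^ j2 ≤ M ^ k := pow_le_pow_right₀ hM.le (by omega)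
  have a3 : M ^ j3 ≤ M ^ k := pow_le_pow_right₀ hM.le (by omega)
  have hk : 0 < M ^ k := by positivity
  have : |qq M (k + 1) * c1| ≤ |qq M j2 * c2| + |qq M j3 * c3| := by
    rw [show qq M (k + 1) * c1 = -(qq M j2 * c2 + qq M j3 * c3) by linarith, abs_neg]
    exact abs_add_le _ _
  simp only [abs_mul, abs_qq hM, pow_succ] at this
  have b2 := mul_le_mul a2 e2 (abs_nonneg _) hk.le
  have b3 := mul_le_mul a3 e3 (abs_nonneg _) hk.le
  have b1 := mul_le_mul_of_nonneg_left e1 (show 0 ≤ M ^ k * M by positivity)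
  nlinarith

/-- The segment between a point of the first axis and a point of the second axis. -/
noncomputable def seg (P Q : ℝ) (t : unitInterval) : ℝ × ℝ := ((1 - t) / P, t / Q)

lemma mem_seg {P Q : ℝ} (hP : P ≠ 0) (hQ : Q ≠ 0) {q : ℝ × ℝ} (h1 : 0 < P * q.1) (h2 : 0 < Q * q.2) :
    q ∈ Set.range (seg P Q) ↔ P * q.1 + Q * q.2 - 1 = 0 := by
  constructor
  · rintro ⟨t, rfl⟩; simp only [seg]; field_simp; ring
  · intro h
    refine ⟨⟨Q * q.2, h2.le, by linarith⟩, Prod.ext ?_ ?_⟩ <;> simp only [seg] <;> field_simp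
    linarith

lemma of_inner {P Q : ℝ} (hP : P ≠ 0) (hQ : Q ≠ 0) {q : ℝ × ℝ}
    (h : q ∈ seg P Q '' {t | t ≠ 0 ∧ t ≠ 1}) :
    0 < P * q.1 ∧ 0 < Q * q.2 ∧ P * q.1 + Q * q.2 = 1 := by
  obtain ⟨t, ⟨t0, t1⟩, rfl⟩ := h
  have a0 : (0:ℝ) < t := lt_of_le_of_ne t.2.1 fun h => t0 (Subtype.ext h.symm)
  have a1 : (t:ℝ) < 1 := lt_of_le_of_ne t.2.2 fun h => t1 (Subtype.ext h)
  simp only [seg, mul_div_cancel₀ _ hP, mul_div_cancel₀ _ hQ]
  exact ⟨by linarith, a0, by ring⟩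

lemma exists_idx {m n : ℕ} (e : (completeBipartiteGraph (Fin m) (Fin n)).edgeSet) :
    ∃ x : Fin m × Fin n, e = ed x.1 x.2 := by
  obtain ⟨e, he⟩ := e
  induction e using Sym2.ind with
  | h u v =>
    rcases u with u | u <;> rcases v with v | v <;> simp at he
    · exact ⟨(u, v), rfl⟩
    · exact ⟨(v, u), Subtype.ext Sym2.eq_swap⟩

/-- The ends of an edge. -/
noncomputable def idx {m n : ℕ} (e : (completeBipartiteGraph (Fin m) (Fin n)).edgeSet) :
    Fin m × Fin n := (exists_idx e).choose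

lemma idx_spec {m n : ℕ} (e : (completeBipartiteGraph (Fin m) (Fin n)).edgeSet) :
    e = ed (idx e).1 (idx e).2 := (exists_idx e).choose_spec

/-- The drawing of Zarankiewicz. -/
noncomputable def zar (m n : ℕ) {M : ℝ} (hM : 1 < M) :
    Drawing (completeBipartiteGraph (Fin m) (Fin n)) where
  pos := Sum.elim (fun i => (1 / pp i, 0)) (fun j => (0, 1 / qq M j))
  arc e := seg (pp (idx e).1) (qq M (idx e).2)
  pos_injective := by
    rintro (u | u) (v | v) h
    · simp only [elim_inl, Prod.mk.injEq, one_div, inv_inj, and_true] at h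
      rw [Fin.ext (pp_inj h)]
    · simp [pp_ne] at h
    · simp [qq_ne hM] at h
    · simp only [elim_inr, Prod.mk.injEq, one_div, inv_inj, true_and] at h
      rw [Fin.ext (qq_inj hM h)]
  arc_continuous e := by unfold seg; fun_prop
  arc_injective e s t h := by
    have := congrArg Prod.snd h
    simp only [seg] at this
    exact Subtype.ext ((div_left_inj' (qq_ne hM _)).1 this)
  ends e := ⟨inl (idx e).1, inr (idx e).2, congrArg Subtype.val (idx_spec e), by simp [seg],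
    by simp [seg]⟩
  avoids e t v t0 t1 h := by
    have := of_inner (pp_ne (idx e).1) (qq_ne hM (idx e).2) ⟨t, ⟨t0, t1⟩, rfl⟩
    rw [h] at this
    rcases v with v | v <;> simp at this

lemma zar_ne {m n : ℕ} {M : ℝ} (hM : 1 < M) {p : ℝ × ℝ} {e f} (h : e ≠ f)
    (he : p ∈ (zar m n hM).inner e) (hf : p ∈ (zar m n hM).inner f) :
    (idx e).1 ≠ (idx f).1 ∧ (idx e).2 ≠ (idx f).2 := by
  obtain ⟨a1, a2, a3⟩ := of_inner (pp_ne _) (qq_ne hM _) he
  obtain ⟨b1, b2, b3⟩ := of_inner (pp_ne _) (qq_ne hM _) hf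
  have x0 : p.1 ≠ 0 := fun h => by simp [h] at a1
  have y0 : p.2 ≠ 0 := fun h => by simp [h] at a2
  have k : (idx e).1 = (idx f).1 ↔ (idx e).2 = (idx f).2 := by
    constructor
    · intro h1
      rw [h1] at a3
      exact Fin.ext (qq_inj hM (mul_right_cancel₀ y0 (by linarith)))
    · intro h1
      rw [h1] at a3
      exact Fin.ext (pp_inj (mul_right_cancel₀ x0 (by linarith)))
  have : (idx e).1 ≠ (idx f).1 := fun h1 => h (by rw [idx_spec e, idx_spec f, h1, k.1 h1])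
  exact ⟨this, fun h1 => this (k.2 h1)⟩

lemma det_ne {P Q P' Q' x y : ℝ} (h : P * x + Q * y = 1) (h' : P' * x + Q' * y = 1) (hQ : Q ≠ Q') :
    P * Q' - P' * Q ≠ 0 := fun e => hQ (by linear_combination -Q * h' + Q' * h - x * e)

/-- The intersection point of two lines. -/
noncomputable def pt (P Q P' Q' : ℝ) : ℝ × ℝ :=
  ((Q' - Q) / (P * Q' - P' * Q), (P - P') / (P * Q' - P' * Q))

lemma eq_pt {P Q P' Q' : ℝ} {p : ℝ × ℝ} (h : P * p.1 + Q * p.2 = 1) (h' : P' * p.1 + Q' * p.2 = 1)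
    (hQ : Q ≠ Q') : p = pt P Q P' Q' := by
  have := det_ne h h' hQ
  refine Prod.ext ?_ ?_ <;> simp only [pt] <;> rw [eq_div_iff this]
  · linear_combination Q' * h - Q * h'
  · linear_combination P * h' - P' * h

/-- Index set for pairs of equal parity. -/
def Im (m : ℕ) : Finset (Σ _ : ℕ, ℕ) := (range m).sigma fun k => range (k / 2)

lemma card_Im (m : ℕ) : (Im m).card = m / 2 * ((m - 1) / 2) := by
  simp only [Im, card_sigma, card_range]
  induction m with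
  | zero => simp
  | succ m ih =>
    rw [sum_range_succ, ih]
    rcases Nat.even_or_odd' m with ⟨a, rfl | rfl⟩
    · rcases a with _ | a
      · simp
      rw [show 2 * (a + 1) / 2 = a + 1 by omega, show (2 * (a + 1) - 1) / 2 = a by omega,
        show (2 * (a + 1) + 1) / 2 = a + 1 by omega, show (2 * (a + 1) + 1 - 1) / 2 = a + 1 by omega]
      ring
    · rw [show (2 * a + 1) / 2 = a by omega, show (2 * a + 1 - 1) / 2 = a by omega,
        show (2 * a + 1 + 1) / 2 = a + 1 by omega, show (2 * a + 1 + 1 - 1) / 2 = a by omega]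
      ring

lemma mem_Im {m a b : ℕ} (h : a < b) (hb : b < m) (hp : a % 2 = b % 2) :
    ∃ x ∈ Im m, x.1 = b ∧ x.1 - 2 * (x.2 + 1) = a :=
  ⟨⟨b, (b - a) / 2 - 1⟩, by simp only [Im, mem_sigma, mem_range]; omega, rfl, by simp only; omega⟩

lemma zar_sub (m n : ℕ) {M : ℝ} (hM : 1 < M) : (zar m n hM).crossings ⊆
    ((Im m ×ˢ Im n).image fun x => pt (pp (x.1.1 - 2 * (x.1.2 + 1))) (qq M x.2.1) (pp x.1.1)
      (qq M (x.2.1 - 2 * (x.2.2 + 1))) : Finset (ℝ × ℝ)) := by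
  rintro p ⟨e, f, h, he, hf⟩
  wlog hlt : (idx e).1 < (idx f).1 generalizing e f
  · exact this f e h.symm hf he (lt_of_le_of_ne (not_lt.1 hlt) (zar_ne hM h he hf).1.symm)
  obtain ⟨a1, a2, a3⟩ := of_inner (pp_ne _) (qq_ne hM _) he
  obtain ⟨b1, b2, b3⟩ := of_inner (pp_ne _) (qq_ne hM _) hf
  have p1 := parity (by positivity) (by positivity) a1 b1
  have p2 := parity (by positivity) (by positivity) a2 b2
  have hlt2 : ((idx f).2 : ℕ) < (idx e).2 := by
    rw [← abs_of_pos a1, ← abs_of_pos a2, abs_mul, abs_mul, abs_pp, abs_qq hM] at a3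
    rw [← abs_of_pos b1, ← abs_of_pos b2, abs_mul, abs_mul, abs_pp, abs_qq hM] at b3
    have x0 : 0 < |p.1| := abs_pos.2 fun h => by simp [h] at a1
    have c : (((idx e).1 : ℕ) : ℝ) < ((idx f).1 : ℕ) := by exact_mod_cast hlt
    refine lt_of_not_ge fun hh => ?_
    have := mul_le_mul_of_nonneg_right (pow_le_pow_right₀ hM.le hh) (abs_nonneg p.2)
    nlinarith
  obtain ⟨x, hx, x1, x2⟩ := mem_Im hlt (idx f).1.2 p1
  obtain ⟨y, hy, y1, y2⟩ := mem_Im hlt2 (idx e).2.2 p2.symm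
  simp only [coe_image, coe_product, Set.mem_image, Set.mem_prod, mem_coe]
  refine ⟨(x, y), ⟨hx, hy⟩, ?_⟩
  simp only [x2, y2]
  rw [x1, y1]
  exact (eq_pt a3 b3 fun h => hlt2.ne' (qq_inj hM h)).symm

/-- The affine chart straightening two lines. -/
noncomputable def chart {P Q P' Q' : ℝ} (h : P * Q' - P' * Q ≠ 0) : (ℝ × ℝ) ≃ₜ (ℝ × ℝ) where
  toFun q := (P' * q.1 + Q' * q.2 - 1, P * q.1 + Q * q.2 - 1)
  invFun z := ((Q' * (z.2 + 1) - Q * (z.1 + 1)) / (P * Q' - P' * Q),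
    (P * (z.1 + 1) - P' * (z.2 + 1)) / (P * Q' - P' * Q))
  left_inv q := by refine Prod.ext ?_ ?_ <;> simp only <;> rw [div_eq_iff h] <;> ring
  right_inv z := by
    refine Prod.ext ?_ ?_ <;> simp only <;>
      rw [mul_div_assoc', mul_div_assoc', ← add_div, div_sub_one h, div_eq_iff h] <;> ring
  continuous_toFun := by fun_prop
  continuous_invFun := by fun_prop

lemma zar_proper (m n : ℕ) {M : ℝ} (hM : 1 < M) (hm : 2 * (2 * (m:ℝ)) < M) :
    (zar m n hM).IsProper where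
  finite := (finite_toSet _).subset (zar_sub m n hM)
  two p e f g he hf hg := by
    by_contra hc
    push Not at hc
    obtain ⟨i1, j1⟩ := zar_ne hM hc.1 he hf
    obtain ⟨i2, j2⟩ := zar_ne hM hc.2.1 he hg
    obtain ⟨i3, j3⟩ := zar_ne hM hc.2.2 hf hg
    obtain ⟨a1, a2, a3⟩ := of_inner (pp_ne _) (qq_ne hM _) he
    obtain ⟨-, -, b3⟩ := of_inner (pp_ne _) (qq_ne hM _) hf
    obtain ⟨-, -, c3⟩ := of_inner (pp_ne _) (qq_ne hM _) hg
    have y0 : p.2 ≠ 0 := fun h => by simp [h] at a2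
    rw [Ne, Fin.ext_iff] at i1 i2 i3 j1 j2 j3
    have key : qq M (idx e).2 * (pp (idx g).1 - pp (idx f).1) +
        qq M (idx f).2 * (pp (idx e).1 - pp (idx g).1) +
        qq M (idx g).2 * (pp (idx f).1 - pp (idx e).1) = 0 :=
      mul_right_cancel₀ y0 (by
        linear_combination (pp (idx g).1 - pp (idx f).1) * a3 + (pp (idx e).1 - pp (idx g).1) * b3
          + (pp (idx f).1 - pp (idx e).1) * c3)
    have l1 := pp_sub_le (idx g).1.2 (idx f).1.2
    have l2 := pp_sub_le (idx e).1.2 (idx g).1.2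
    have l3 := pp_sub_le (idx f).1.2 (idx e).1.2
    have g1 := pp_sub_ge (Ne.symm i3)
    have g2 := pp_sub_ge i2
    have g3 := pp_sub_ge (Ne.symm i1)
    rcases (show (((idx f).2 : ℕ) < (idx e).2 ∧ ((idx g).2 : ℕ) < (idx e).2) ∨
        (((idx e).2 : ℕ) < (idx f).2 ∧ ((idx g).2 : ℕ) < (idx f).2) ∨
        (((idx e).2 : ℕ) < (idx g).2 ∧ ((idx f).2 : ℕ) < (idx g).2) by omega) with h | h | h
    · exact tri hM hm h.1 h.2 g1 l2 l3 key
    · exact tri hM hm h.1 h.2 g2 l1 l3 (by linarith)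
    · exact tri hM hm h.1 h.2 g3 l1 l2 (by linarith)
  transversal p e f h he hf := by
    obtain ⟨a1, a2, a3⟩ := of_inner (pp_ne _) (qq_ne hM _) he
    obtain ⟨b1, b2, b3⟩ := of_inner (pp_ne _) (qq_ne hM _) hf
    have hd := det_ne a3 b3 fun h' => (zar_ne hM h he hf).2 (Fin.ext (qq_inj hM h'))
    refine ⟨(chart hd).toOpenPartialHomeomorph.restrOpen {q | (0 < pp (idx e).1 * q.1 ∧
      0 < qq M (idx e).2 * q.2) ∧ 0 < pp (idx f).1 * q.1 ∧ 0 < qq M (idx f).2 * q.2}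
      (by
        refine IsOpen.and (IsOpen.and ?_ ?_) (IsOpen.and ?_ ?_) <;>
          exact isOpen_lt continuous_const (by fun_prop)), ⟨trivial, ⟨a1, a2⟩, b1, b2⟩, ?_⟩
    rintro q ⟨-, ⟨c1, c2⟩, d1, d2⟩
    exact ⟨mem_seg (pp_ne _) (qq_ne hM _) c1 c2, mem_seg (pp_ne _) (qq_ne hM _) d1 d2⟩

theorem zarankiewicz (m n : ℕ) : crossingNumber (completeBipartiteGraph (Fin m) (Fin n)) =
    (m / 2 * ((m - 1) / 2)) * (n / 2 * ((n - 1) / 2)) := by
  have hM : (1:ℝ) < 4 * m + 2 := by have : (0:ℝ) ≤ m := Nat.cast_nonneg m; linarith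
  have hp := zar_proper m n hM (by linarith)
  have h1 : crossingNumber (completeBipartiteGraph (Fin m) (Fin n)) ≤
      (zar m n hM).crossings.ncard := Nat.sInf_le ⟨_, hp, rfl⟩
  refine le_antisymm (h1.trans ?_) ?_
  · refine (Set.ncard_le_ncard (zar_sub m n hM) (finite_toSet _)).trans ?_
    rw [Set.ncard_coe_finset]
    refine card_image_le.trans ?_
    rw [card_product, card_Im, card_Im]
  · obtain ⟨D, hD, e⟩ := Nat.sInf_mem (s := {c | ∃ D : Drawing
      (completeBipartiteGraph (Fin m) (Fin n)), D.IsProper ∧ D.crossings.ncard = c}) ⟨_, _, hp, rfl⟩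
    rw [crossingNumber, ← e]
    exact lower D hD.finite hD.two

end Vale.Agent.P040
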